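import Vale.Agent.P236JM.Cov
import Vale.Agent.P236JB.C.W2
import Vale.Agent.P236JM.W2a
import Vale.Agent.P236JM.W2b
import Vale.Agent.P236JM.W2c
import Vale.Agent.P236JC.K1_0
import Vale.Agent.P236JC.K1_2
import Vale.Agent.P236JC.K1_1
import Vale.Agent.P236JC.K1_5
import Vale.Agent.P236JC.K1_4
import Vale.Agent.P236JC.K1_7
import Vale.Agent.P236JC.K1_6
import Vale.Agent.P236JC.K1_9
import Vale.Agent.P236JC.K1_11
import Vale.Agent.P236JC.K1_10
import Vale.Agent.P236JC.K1_13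
import Vale.Agent.P236JC.K1_8
import Vale.Agent.P236JC.K1_12
import Vale.Agent.P236JM.K1a_0
import Vale.Agent.P236JM.K1b_1
import Vale.Agent.P236JM.K1c_2

/-!
# P236JN : the composite in degree 1 vanishes (generated)
-/

set_option maxRecDepth 100000

namespace Vale.Agent.P236JN

open Vale.Agent.P236JB

theorem sq1 [Fact (Nat.Prime 3)] : P236JK.Ini.SqJ 1 :=
  ((cv_of Z.tabW2 ((dn P236JC.k1_0).or
    ((dn P236JC.k1_2).or
    ((dn P236JC.k1_1).or
    ((dn P236JC.k1_5).or
    ((dn P236JC.k1_4).or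
    ((dn P236JC.k1_7).or
    ((dn P236JC.k1_6).or
    ((dn P236JC.k1_9).or
    ((dn P236JC.k1_11).or
    ((dn P236JC.k1_10).or
    ((dn P236JC.k1_13).or
    ((dn P236JC.k1_8).or
    (dn P236JC.k1_12))))))))))))) (by decide +kernel)).run
  ((cv_of P236JM.tabW2a (dn P236JM.k1a_0) (by decide +kernel)).col
  ((cv_of P236JM.tabW2b (dn P236JM.k1b_1) (by decide +kernel)).col
  (cv_of P236JM.tabW2c (dn P236JM.k1c_2) (by decide +kernel))))).sq (by decide +kernel)

end Vale.Agent.P236JN
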