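import Vale.Agent.P236JM.Cov
import Vale.Agent.P236JB.C.W11
import Vale.Agent.P236JC.K10_2
import Vale.Agent.P236JC.K10_0
import Vale.Agent.P236JC.K10_1
import Vale.Agent.P236JC.K10_4
import Vale.Agent.P236JC.K10_3
import Vale.Agent.P236JC.K10_7
import Vale.Agent.P236JM.K10_0
import Vale.Agent.P236JM.K10_1
import Vale.Agent.P236JM.K10_2
import Vale.Agent.P236JM.K10_3

/-!
# P236JN : the composite in degree 10 vanishes (generated)
-/

set_option maxRecDepth 100000

namespace Vale.Agent.P236JN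

open Vale.Agent.P236JB

theorem sq10 [Fact (Nat.Prime 3)] : P236JK.Ini.SqJ 10 :=
  (cv_of Z.tabW11 ((dn P236JC.k10_2).or
    ((dn P236JC.k10_0).or
    ((dn P236JC.k10_1).or
    ((dn P236JC.k10_4).or
    ((dn P236JC.k10_3).or
    ((dn P236JC.k10_7).or
    ((dn P236JM.k10_0).or
    ((dn P236JM.k10_1).or
    ((dn P236JM.k10_2).or
    (dn P236JM.k10_3)))))))))) (by decide +kernel)).sq (by decide +kernel)

end Vale.Agent.P236JN
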