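import Vale.Agent.P236JM.Cov
import Vale.Agent.P236JB.C.W17
import Vale.Agent.P236JC.K16_1
import Vale.Agent.P236JM.K16_0
import Vale.Agent.P236JM.K16_1

/-!
# P236JN : the composite in degree 16 vanishes (generated)
-/

set_option maxRecDepth 100000

namespace Vale.Agent.P236JN

open Vale.Agent.P236JB

theorem sq16 [Fact (Nat.Prime 3)] : P236JK.Ini.SqJ 16 :=
  (cv_of Z.tabW17 ((dn P236JC.k16_1).or
    ((dn P236JM.k16_0).or
    (dn P236JM.k16_1))) (by decide +kernel)).sq (by decide +kernel)

end Vale.Agent.P236JN
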