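import Vale.Agent.P236JM.Cov
import Vale.Agent.P236JB.C.W3
import Vale.Agent.P236JM.W3a
import Vale.Agent.P236JM.W3b
import Vale.Agent.P236JM.W3c
import Vale.Agent.P236JC.K2_0
import Vale.Agent.P236JC.K2_2
import Vale.Agent.P236JC.K2_1
import Vale.Agent.P236JC.K2_5
import Vale.Agent.P236JC.K2_4
import Vale.Agent.P236JC.K2_7
import Vale.Agent.P236JC.K2_6
import Vale.Agent.P236JC.K2_9
import Vale.Agent.P236JC.K2_11
import Vale.Agent.P236JC.K2_10
import Vale.Agent.P236JC.K2_12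
import Vale.Agent.P236JC.K2_15
import Vale.Agent.P236JC.K2_13
import Vale.Agent.P236JC.K2_16
import Vale.Agent.P236JC.K2_18
import Vale.Agent.P236JC.K2_14
import Vale.Agent.P236JC.K2_17
import Vale.Agent.P236JC.K2_19
import Vale.Agent.P236JC.K2_21
import Vale.Agent.P236JC.K2_22
import Vale.Agent.P236JC.K2_23
import Vale.Agent.P236JC.K2_24
import Vale.Agent.P236JC.K2_25
import Vale.Agent.P236JC.K2_27
import Vale.Agent.P236JC.K2_26
import Vale.Agent.P236JC.K2_28
import Vale.Agent.P236JM.K2a_0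
import Vale.Agent.P236JM.K2a_3
import Vale.Agent.P236JM.K2a_6
import Vale.Agent.P236JM.K2b_1
import Vale.Agent.P236JM.K2b_4
import Vale.Agent.P236JM.K2b_7
import Vale.Agent.P236JM.K2c_2
import Vale.Agent.P236JM.K2c_5
import Vale.Agent.P236JM.K2c_8

/-!
# P236JN : the composite in degree 2 vanishes (generated)
-/

set_option maxRecDepth 100000

namespace Vale.Agent.P236JN

open Vale.Agent.P236JB

theorem sq2 [Fact (Nat.Prime 3)] : P236JK.Ini.SqJ 2 :=
  ((cv_of Z.tabW3 ((dn P236JC.k2_0).or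
    ((dn P236JC.k2_2).or
    ((dn P236JC.k2_1).or
    ((dn P236JC.k2_5).or
    ((dn P236JC.k2_4).or
    ((dn P236JC.k2_7).or
    ((dn P236JC.k2_6).or
    ((dn P236JC.k2_9).or
    ((dn P236JC.k2_11).or
    ((dn P236JC.k2_10).or
    ((dn P236JC.k2_12).or
    ((dn P236JC.k2_15).or
    ((dn P236JC.k2_13).or
    ((dn P236JC.k2_16).or
    ((dn P236JC.k2_18).or
    ((dn P236JC.k2_14).or
    ((dn P236JC.k2_17).or
    ((dn P236JC.k2_19).or
    ((dn P236JC.k2_21).or
    ((dn P236JC.k2_22).or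
    ((dn P236JC.k2_23).or
    ((dn P236JC.k2_24).or
    ((dn P236JC.k2_25).or
    ((dn P236JC.k2_27).or
    ((dn P236JC.k2_26).or
    (dn P236JC.k2_28)))))))))))))))))))))))))) (by decide +kernel)).run
  ((cv_of P236JM.tabW3a ((dn P236JM.k2a_0).or
    ((dn P236JM.k2a_3).or
    (dn P236JM.k2a_6))) (by decide +kernel)).col
  ((cv_of P236JM.tabW3b ((dn P236JM.k2b_1).or
    ((dn P236JM.k2b_4).or
    (dn P236JM.k2b_7))) (by decide +kernel)).col
  (cv_of P236JM.tabW3c ((dn P236JM.k2c_2).or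
    ((dn P236JM.k2c_5).or
    (dn P236JM.k2c_8))) (by decide +kernel))))).sq (by decide +kernel)

end Vale.Agent.P236JN
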