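import Vale.Agent.P236JM.Cov
import Vale.Agent.P236JB.C.W4
import Vale.Agent.P236JM.W4a
import Vale.Agent.P236JM.W4b
import Vale.Agent.P236JM.W4c
import Vale.Agent.P236JC.K3_0
import Vale.Agent.P236JC.K3_5
import Vale.Agent.P236JC.K3_10
import Vale.Agent.P236JC.K3_15
import Vale.Agent.P236JC.K3_26
import Vale.Agent.P236JC.K3_28
import Vale.Agent.P236JC.K3_29
import Vale.Agent.P236JM.K3_48
import Vale.Agent.P236JM.K3_49
import Vale.Agent.P236JC.K3_32
import Vale.Agent.P236JM.K3_50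
import Vale.Agent.P236JM.K3_51
import Vale.Agent.P236JM.K3_52
import Vale.Agent.P236JM.K3_53
import Vale.Agent.P236JM.K3b_0
import Vale.Agent.P236JM.K3b_5
import Vale.Agent.P236JM.K3b_7
import Vale.Agent.P236JM.K3b_10
import Vale.Agent.P236JM.K3b_13
import Vale.Agent.P236JM.K3b_17
import Vale.Agent.P236JM.K3b_18
import Vale.Agent.P236JM.K3b_22
import Vale.Agent.P236JM.K3b_26
import Vale.Agent.P236JM.K3b_28
import Vale.Agent.P236JM.K3b_31
import Vale.Agent.P236JM.K3b_34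
import Vale.Agent.P236JM.K3b_37
import Vale.Agent.P236JM.K3b_40
import Vale.Agent.P236JM.K3b_44
import Vale.Agent.P236JM.K3b_46
import Vale.Agent.P236JM.K3c_1
import Vale.Agent.P236JM.K3c_4
import Vale.Agent.P236JM.K3c_8
import Vale.Agent.P236JM.K3c_11
import Vale.Agent.P236JM.K3c_14
import Vale.Agent.P236JM.K3c_16
import Vale.Agent.P236JM.K3c_20
import Vale.Agent.P236JM.K3c_21
import Vale.Agent.P236JM.K3c_24
import Vale.Agent.P236JM.K3c_29
import Vale.Agent.P236JM.K3c_30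
import Vale.Agent.P236JM.K3c_35
import Vale.Agent.P236JM.K3c_38
import Vale.Agent.P236JM.K3c_41
import Vale.Agent.P236JM.K3c_45
import Vale.Agent.P236JM.K3c_47
import Vale.Agent.P236JM.K3a_2
import Vale.Agent.P236JM.K3a_3
import Vale.Agent.P236JM.K3a_6
import Vale.Agent.P236JM.K3a_9
import Vale.Agent.P236JM.K3a_12
import Vale.Agent.P236JM.K3a_15
import Vale.Agent.P236JM.K3a_19
import Vale.Agent.P236JM.K3a_23
import Vale.Agent.P236JM.K3a_25
import Vale.Agent.P236JM.K3a_27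
import Vale.Agent.P236JM.K3a_32
import Vale.Agent.P236JM.K3a_33
import Vale.Agent.P236JM.K3a_36
import Vale.Agent.P236JM.K3a_39
import Vale.Agent.P236JM.K3a_42
import Vale.Agent.P236JM.K3a_43

/-!
# P236JN : the composite in degree 3 vanishes (generated)
-/

set_option maxRecDepth 100000

namespace Vale.Agent.P236JN

open Vale.Agent.P236JB

theorem sq3 [Fact (Nat.Prime 3)] : P236JK.Ini.SqJ 3 :=
  ((cv_of Z.tabW4 ((dn P236JC.k3_0).or
    ((dn P236JC.k3_5).or
    ((dn P236JC.k3_10).or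
    ((dn P236JC.k3_15).or
    ((dn P236JC.k3_26).or
    ((dn P236JC.k3_28).or
    ((dn P236JC.k3_29).or
    ((dn P236JM.k3_48).or
    ((dn P236JM.k3_49).or
    ((dn P236JC.k3_32).or
    ((dn P236JM.k3_50).or
    ((dn P236JM.k3_51).or
    ((dn P236JM.k3_52).or
    (dn P236JM.k3_53)))))))))))))) (by decide +kernel)).run
  ((cv_of P236JM.tabW4a ((dn P236JM.k3a_2).or
    ((dn P236JM.k3a_3).or
    ((dn P236JM.k3a_6).or
    ((dn P236JM.k3a_9).or
    ((dn P236JM.k3a_12).or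
    ((dn P236JM.k3a_15).or
    ((dn P236JM.k3a_19).or
    ((dn P236JM.k3a_23).or
    ((dn P236JM.k3a_25).or
    ((dn P236JM.k3a_27).or
    ((dn P236JM.k3a_32).or
    ((dn P236JM.k3a_33).or
    ((dn P236JM.k3a_36).or
    ((dn P236JM.k3a_39).or
    ((dn P236JM.k3a_42).or
    (dn P236JM.k3a_43)))))))))))))))) (by decide +kernel)).col
  ((cv_of P236JM.tabW4b ((dn P236JM.k3b_0).or
    ((dn P236JM.k3b_5).or
    ((dn P236JM.k3b_7).or
    ((dn P236JM.k3b_10).or
    ((dn P236JM.k3b_13).or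
    ((dn P236JM.k3b_17).or
    ((dn P236JM.k3b_18).or
    ((dn P236JM.k3b_22).or
    ((dn P236JM.k3b_26).or
    ((dn P236JM.k3b_28).or
    ((dn P236JM.k3b_31).or
    ((dn P236JM.k3b_34).or
    ((dn P236JM.k3b_37).or
    ((dn P236JM.k3b_40).or
    ((dn P236JM.k3b_44).or
    (dn P236JM.k3b_46)))))))))))))))) (by decide +kernel)).col
  (cv_of P236JM.tabW4c ((dn P236JM.k3c_1).or
    ((dn P236JM.k3c_4).or
    ((dn P236JM.k3c_8).or
    ((dn P236JM.k3c_11).or
    ((dn P236JM.k3c_14).or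
    ((dn P236JM.k3c_16).or
    ((dn P236JM.k3c_20).or
    ((dn P236JM.k3c_21).or
    ((dn P236JM.k3c_24).or
    ((dn P236JM.k3c_29).or
    ((dn P236JM.k3c_30).or
    ((dn P236JM.k3c_35).or
    ((dn P236JM.k3c_38).or
    ((dn P236JM.k3c_41).or
    ((dn P236JM.k3c_45).or
    (dn P236JM.k3c_47)))))))))))))))) (by decide +kernel))))).sq (by decide +kernel)

end Vale.Agent.P236JN
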