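import Vale.Agent.P236JM.Cov
import Vale.Agent.P236JB.C.W5
import Vale.Agent.P236JM.W5a
import Vale.Agent.P236JM.W5b
import Vale.Agent.P236JM.W5c
import Vale.Agent.P236JM.K4a_0
import Vale.Agent.P236JM.K4a_1
import Vale.Agent.P236JM.K4a_2
import Vale.Agent.P236JM.K4a_9
import Vale.Agent.P236JM.K4a_10
import Vale.Agent.P236JM.K4a_17
import Vale.Agent.P236JM.K4a_22
import Vale.Agent.P236JM.K4b_3
import Vale.Agent.P236JM.K4b_5
import Vale.Agent.P236JM.K4b_7
import Vale.Agent.P236JM.K4b_11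
import Vale.Agent.P236JM.K4b_12
import Vale.Agent.P236JM.K4b_18
import Vale.Agent.P236JM.K4b_24
import Vale.Agent.P236JM.K4c_4
import Vale.Agent.P236JM.K4c_6
import Vale.Agent.P236JM.K4c_8
import Vale.Agent.P236JM.K4c_13
import Vale.Agent.P236JM.K4c_14
import Vale.Agent.P236JM.K4c_19
import Vale.Agent.P236JM.K4c_26
import Vale.Agent.P236JC.K4_4
import Vale.Agent.P236JC.K4_6
import Vale.Agent.P236JC.K4_7
import Vale.Agent.P236JM.K4_15
import Vale.Agent.P236JM.K4_16
import Vale.Agent.P236JM.K4_20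
import Vale.Agent.P236JM.K4_21
import Vale.Agent.P236JM.K4_23
import Vale.Agent.P236JM.K4_25
import Vale.Agent.P236JC.K4_12
import Vale.Agent.P236JC.K4_13
import Vale.Agent.P236JM.K4_27
import Vale.Agent.P236JM.K4_28
import Vale.Agent.P236JM.K4_29
import Vale.Agent.P236JM.K4_30
import Vale.Agent.P236JM.K4_31
import Vale.Agent.P236JM.K4_32
import Vale.Agent.P236JC.K4_17

/-!
# P236JN : the composite in degree 4 vanishes (generated)
-/

set_option maxRecDepth 100000

namespace Vale.Agent.P236JN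

open Vale.Agent.P236JB

theorem sq4 [Fact (Nat.Prime 3)] : P236JK.Ini.SqJ 4 :=
  ((cv_of Z.tabW5 ((dn P236JC.k4_4).or
    ((dn P236JC.k4_6).or
    ((dn P236JC.k4_7).or
    ((dn P236JM.k4_15).or
    ((dn P236JM.k4_16).or
    ((dn P236JM.k4_20).or
    ((dn P236JM.k4_21).or
    ((dn P236JM.k4_23).or
    ((dn P236JM.k4_25).or
    ((dn P236JC.k4_12).or
    ((dn P236JC.k4_13).or
    ((dn P236JM.k4_27).or
    ((dn P236JM.k4_28).or
    ((dn P236JM.k4_29).or
    ((dn P236JM.k4_30).or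
    ((dn P236JM.k4_31).or
    ((dn P236JM.k4_32).or
    (dn P236JC.k4_17)))))))))))))))))) (by decide +kernel)).run
  ((cv_of P236JM.tabW5a ((dn P236JM.k4a_0).or
    ((dn P236JM.k4a_1).or
    ((dn P236JM.k4a_2).or
    ((dn P236JM.k4a_9).or
    ((dn P236JM.k4a_10).or
    ((dn P236JM.k4a_17).or
    (dn P236JM.k4a_22))))))) (by decide +kernel)).col
  ((cv_of P236JM.tabW5b ((dn P236JM.k4b_3).or
    ((dn P236JM.k4b_5).or
    ((dn P236JM.k4b_7).or
    ((dn P236JM.k4b_11).or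
    ((dn P236JM.k4b_12).or
    ((dn P236JM.k4b_18).or
    (dn P236JM.k4b_24))))))) (by decide +kernel)).col
  (cv_of P236JM.tabW5c ((dn P236JM.k4c_4).or
    ((dn P236JM.k4c_6).or
    ((dn P236JM.k4c_8).or
    ((dn P236JM.k4c_13).or
    ((dn P236JM.k4c_14).or
    ((dn P236JM.k4c_19).or
    (dn P236JM.k4c_26))))))) (by decide +kernel))))).sq (by decide +kernel)

end Vale.Agent.P236JN
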