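import Vale.Agent.P236JM.Cov
import Vale.Agent.P236JB.C.W6
import Vale.Agent.P236JM.W6a
import Vale.Agent.P236JM.W6b
import Vale.Agent.P236JC.K5_0
import Vale.Agent.P236JC.K5_2
import Vale.Agent.P236JC.K5_3
import Vale.Agent.P236JC.K5_4
import Vale.Agent.P236JC.K5_7
import Vale.Agent.P236JC.K5_9
import Vale.Agent.P236JC.K5_15
import Vale.Agent.P236JC.K5_18
import Vale.Agent.P236JC.K5_19
import Vale.Agent.P236JC.K5_20
import Vale.Agent.P236JC.K5_22
import Vale.Agent.P236JC.K5_21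
import Vale.Agent.P236JC.K5_23
import Vale.Agent.P236JC.K5_24
import Vale.Agent.P236JC.K5_25
import Vale.Agent.P236JC.K5_26
import Vale.Agent.P236JC.K5_27
import Vale.Agent.P236JC.K5_28
import Vale.Agent.P236JC.K5_29
import Vale.Agent.P236JC.K5_31
import Vale.Agent.P236JC.K5_30
import Vale.Agent.P236JC.K5_33
import Vale.Agent.P236JC.K5_32
import Vale.Agent.P236JC.K5_34
import Vale.Agent.P236JC.K5_36
import Vale.Agent.P236JC.K5_35
import Vale.Agent.P236JM.K5a_0
import Vale.Agent.P236JM.K5a_2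
import Vale.Agent.P236JM.K5a_3
import Vale.Agent.P236JM.K5a_4
import Vale.Agent.P236JM.K5a_8
import Vale.Agent.P236JM.K5a_9
import Vale.Agent.P236JM.K5a_10
import Vale.Agent.P236JM.K5a_14
import Vale.Agent.P236JM.K5a_16
import Vale.Agent.P236JM.K5a_18
import Vale.Agent.P236JM.K5a_19
import Vale.Agent.P236JM.K5b_1
import Vale.Agent.P236JM.K5b_5
import Vale.Agent.P236JM.K5b_6
import Vale.Agent.P236JM.K5b_7
import Vale.Agent.P236JM.K5b_11
import Vale.Agent.P236JM.K5b_12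
import Vale.Agent.P236JM.K5b_13
import Vale.Agent.P236JM.K5b_15
import Vale.Agent.P236JM.K5b_17
import Vale.Agent.P236JM.K5b_20
import Vale.Agent.P236JM.K5b_21

/-!
# P236JN : the composite in degree 5 vanishes (generated)
-/

set_option maxRecDepth 100000

namespace Vale.Agent.P236JN

open Vale.Agent.P236JB

theorem sq5 [Fact (Nat.Prime 3)] : P236JK.Ini.SqJ 5 :=
  ((cv_of Z.tabW6 ((dn P236JC.k5_0).or
    ((dn P236JC.k5_2).or
    ((dn P236JC.k5_3).or
    ((dn P236JC.k5_4).or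
    ((dn P236JC.k5_7).or
    ((dn P236JC.k5_9).or
    ((dn P236JC.k5_15).or
    ((dn P236JC.k5_18).or
    ((dn P236JC.k5_19).or
    ((dn P236JC.k5_20).or
    ((dn P236JC.k5_22).or
    ((dn P236JC.k5_21).or
    ((dn P236JC.k5_23).or
    ((dn P236JC.k5_24).or
    ((dn P236JC.k5_25).or
    ((dn P236JC.k5_26).or
    ((dn P236JC.k5_27).or
    ((dn P236JC.k5_28).or
    ((dn P236JC.k5_29).or
    ((dn P236JC.k5_31).or
    ((dn P236JC.k5_30).or
    ((dn P236JC.k5_33).or
    ((dn P236JC.k5_32).or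
    ((dn P236JC.k5_34).or
    ((dn P236JC.k5_36).or
    (dn P236JC.k5_35)))))))))))))))))))))))))) (by decide +kernel)).run
  ((cv_of P236JM.tabW6a ((dn P236JM.k5a_0).or
    ((dn P236JM.k5a_2).or
    ((dn P236JM.k5a_3).or
    ((dn P236JM.k5a_4).or
    ((dn P236JM.k5a_8).or
    ((dn P236JM.k5a_9).or
    ((dn P236JM.k5a_10).or
    ((dn P236JM.k5a_14).or
    ((dn P236JM.k5a_16).or
    ((dn P236JM.k5a_18).or
    (dn P236JM.k5a_19))))))))))) (by decide +kernel)).col
  (cv_of P236JM.tabW6b ((dn P236JM.k5b_1).or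
    ((dn P236JM.k5b_5).or
    ((dn P236JM.k5b_6).or
    ((dn P236JM.k5b_7).or
    ((dn P236JM.k5b_11).or
    ((dn P236JM.k5b_12).or
    ((dn P236JM.k5b_13).or
    ((dn P236JM.k5b_15).or
    ((dn P236JM.k5b_17).or
    ((dn P236JM.k5b_20).or
    (dn P236JM.k5b_21))))))))))) (by decide +kernel)))).sq (by decide +kernel)

end Vale.Agent.P236JN
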