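import Vale.Agent.P236JM.Cov
import Vale.Agent.P236JB.C.W7
import Vale.Agent.P236JC.K6_2
import Vale.Agent.P236JM.K6_0
import Vale.Agent.P236JM.K6_1
import Vale.Agent.P236JM.K6_2
import Vale.Agent.P236JM.K6_3
import Vale.Agent.P236JC.K6_4
import Vale.Agent.P236JM.K6_4
import Vale.Agent.P236JM.K6_5
import Vale.Agent.P236JM.K6_6
import Vale.Agent.P236JM.K6_7
import Vale.Agent.P236JC.K6_6
import Vale.Agent.P236JM.K6_8
import Vale.Agent.P236JM.K6_9
import Vale.Agent.P236JM.K6_10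
import Vale.Agent.P236JM.K6_11
import Vale.Agent.P236JM.K6_12
import Vale.Agent.P236JM.K6_13

/-!
# P236JN : the composite in degree 6 vanishes (generated)
-/

set_option maxRecDepth 100000

namespace Vale.Agent.P236JN

open Vale.Agent.P236JB

theorem sq6 [Fact (Nat.Prime 3)] : P236JK.Ini.SqJ 6 :=
  (cv_of Z.tabW7 ((dn P236JC.k6_2).or
    ((dn P236JM.k6_0).or
    ((dn P236JM.k6_1).or
    ((dn P236JM.k6_2).or
    ((dn P236JM.k6_3).or
    ((dn P236JC.k6_4).or
    ((dn P236JM.k6_4).or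
    ((dn P236JM.k6_5).or
    ((dn P236JM.k6_6).or
    ((dn P236JM.k6_7).or
    ((dn P236JC.k6_6).or
    ((dn P236JM.k6_8).or
    ((dn P236JM.k6_9).or
    ((dn P236JM.k6_10).or
    ((dn P236JM.k6_11).or
    ((dn P236JM.k6_12).or
    (dn P236JM.k6_13))))))))))))))))) (by decide +kernel)).sq (by decide +kernel)

end Vale.Agent.P236JN
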