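import Vale.Agent.P236JM.Cov
import Vale.Agent.P236JB.C.W8
import Vale.Agent.P236JM.W8a
import Vale.Agent.P236JM.W8b
import Vale.Agent.P236JC.K7_0
import Vale.Agent.P236JC.K7_1
import Vale.Agent.P236JC.K7_2
import Vale.Agent.P236JC.K7_4
import Vale.Agent.P236JC.K7_5
import Vale.Agent.P236JC.K7_6
import Vale.Agent.P236JC.K7_7
import Vale.Agent.P236JC.K7_8
import Vale.Agent.P236JC.K7_9
import Vale.Agent.P236JC.K7_10
import Vale.Agent.P236JC.K7_12
import Vale.Agent.P236JC.K7_13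
import Vale.Agent.P236JC.K7_11
import Vale.Agent.P236JC.K7_14
import Vale.Agent.P236JC.K7_15
import Vale.Agent.P236JC.K7_16
import Vale.Agent.P236JC.K7_19
import Vale.Agent.P236JC.K7_17
import Vale.Agent.P236JC.K7_18
import Vale.Agent.P236JC.K7_20
import Vale.Agent.P236JC.K7_21
import Vale.Agent.P236JM.K7a_0
import Vale.Agent.P236JM.K7b_1

/-!
# P236JN : the composite in degree 7 vanishes (generated)
-/

set_option maxRecDepth 100000

namespace Vale.Agent.P236JN

open Vale.Agent.P236JB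

theorem sq7 [Fact (Nat.Prime 3)] : P236JK.Ini.SqJ 7 :=
  ((cv_of Z.tabW8 ((dn P236JC.k7_0).or
    ((dn P236JC.k7_1).or
    ((dn P236JC.k7_2).or
    ((dn P236JC.k7_4).or
    ((dn P236JC.k7_5).or
    ((dn P236JC.k7_6).or
    ((dn P236JC.k7_7).or
    ((dn P236JC.k7_8).or
    ((dn P236JC.k7_9).or
    ((dn P236JC.k7_10).or
    ((dn P236JC.k7_12).or
    ((dn P236JC.k7_13).or
    ((dn P236JC.k7_11).or
    ((dn P236JC.k7_14).or
    ((dn P236JC.k7_15).or
    ((dn P236JC.k7_16).or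
    ((dn P236JC.k7_19).or
    ((dn P236JC.k7_17).or
    ((dn P236JC.k7_18).or
    ((dn P236JC.k7_20).or
    (dn P236JC.k7_21))))))))))))))))))))) (by decide +kernel)).run
  ((cv_of P236JM.tabW8a (dn P236JM.k7a_0) (by decide +kernel)).col
  (cv_of P236JM.tabW8b (dn P236JM.k7b_1) (by decide +kernel)))).sq (by decide +kernel)

end Vale.Agent.P236JN
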