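import Vale.Agent.P236JM.Cov
import Vale.Agent.P236JB.C.W9
import Vale.Agent.P236JC.K8_2
import Vale.Agent.P236JC.K8_1
import Vale.Agent.P236JM.K8_0
import Vale.Agent.P236JM.K8_1
import Vale.Agent.P236JC.K8_3
import Vale.Agent.P236JC.K8_4
import Vale.Agent.P236JM.K8_2
import Vale.Agent.P236JM.K8_3
import Vale.Agent.P236JM.K8_4
import Vale.Agent.P236JM.K8_5
import Vale.Agent.P236JM.K8_6
import Vale.Agent.P236JM.K8_7

/-!
# P236JN : the composite in degree 8 vanishes (generated)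
-/

set_option maxRecDepth 100000

namespace Vale.Agent.P236JN

open Vale.Agent.P236JB

theorem sq8 [Fact (Nat.Prime 3)] : P236JK.Ini.SqJ 8 :=
  (cv_of Z.tabW9 ((dn P236JC.k8_2).or
    ((dn P236JC.k8_1).or
    ((dn P236JM.k8_0).or
    ((dn P236JM.k8_1).or
    ((dn P236JC.k8_3).or
    ((dn P236JC.k8_4).or
    ((dn P236JM.k8_2).or
    ((dn P236JM.k8_3).or
    ((dn P236JM.k8_4).or
    ((dn P236JM.k8_5).or
    ((dn P236JM.k8_6).or
    (dn P236JM.k8_7)))))))))))) (by decide +kernel)).sq (by decide +kernel)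

end Vale.Agent.P236JN
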