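import Vale.Agent.P236JM.Cov
import Vale.Agent.P236JB.C.W10
import Vale.Agent.P236JM.K9_0
import Vale.Agent.P236JM.K9_1
import Vale.Agent.P236JM.K9_2
import Vale.Agent.P236JM.K9_3
import Vale.Agent.P236JM.K9_4
import Vale.Agent.P236JM.K9_5
import Vale.Agent.P236JC.K9_3
import Vale.Agent.P236JM.K9_6
import Vale.Agent.P236JM.K9_7
import Vale.Agent.P236JM.K9_8
import Vale.Agent.P236JM.K9_9
import Vale.Agent.P236JM.K9_10
import Vale.Agent.P236JM.K9_11

/-!
# P236JN : the composite in degree 9 vanishes (generated)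
-/

set_option maxRecDepth 100000

namespace Vale.Agent.P236JN

open Vale.Agent.P236JB

theorem sq9 [Fact (Nat.Prime 3)] : P236JK.Ini.SqJ 9 :=
  (cv_of Z.tabW10 ((dn P236JM.k9_0).or
    ((dn P236JM.k9_1).or
    ((dn P236JM.k9_2).or
    ((dn P236JM.k9_3).or
    ((dn P236JM.k9_4).or
    ((dn P236JM.k9_5).or
    ((dn P236JC.k9_3).or
    ((dn P236JM.k9_6).or
    ((dn P236JM.k9_7).or
    ((dn P236JM.k9_8).or
    ((dn P236JM.k9_9).or
    ((dn P236JM.k9_10).or
    (dn P236JM.k9_11))))))))))))) (by decide +kernel)).sq (by decide +kernel)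

end Vale.Agent.P236JN
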