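import Vale.Agent.P236JH.Q0
import Vale.Agent.P236JN.Q1
import Vale.Agent.P236JN.Q2
import Vale.Agent.P236JN.Q3
import Vale.Agent.P236JN.Q4
import Vale.Agent.P236JN.Q5
import Vale.Agent.P236JN.Q6
import Vale.Agent.P236JN.Q7
import Vale.Agent.P236JN.Q8
import Vale.Agent.P236JN.Q9
import Vale.Agent.P236JN.Q10
import Vale.Agent.P236JH.Q11
import Vale.Agent.P236JH.Q12
import Vale.Agent.P236JN.Q13
import Vale.Agent.P236JN.Q14
import Vale.Agent.P236JN.Q15
import Vale.Agent.P236JN.Q16
import Vale.Agent.P236TH.Top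

/-!
# P236JN / Full : the curvature condition and the final statement
-/

namespace Vale.Agent.P236JN

theorem hk [Fact (Nat.Prime 3)] : P236JG.HK :=
  P236JK.Ini.k1_of (Q := 18) fun q hq => by
    have h : q < 17 := by omega
    interval_cases q
    exacts [P236JH.sq0, sq1, sq2, sq3, sq4, sq5, sq6, sq7,
      sq8, sq9, sq10, P236JH.sq11, P236JH.sq12, sq13, sq14, sq15, sq16]

theorem full : P236K.FULL :=
  haveI : Fact (Nat.Prime 3) := ⟨Nat.prime_three⟩
  P236TH.full_of_hk hk

end Vale.Agent.P236JN
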